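import Vale.Agent.P011LA.Tor
import Vale.Agent.P011L.IF
import Mathlib.LinearAlgebra.Matrix.Permutation
import Mathlib.LinearAlgebra.Matrix.SpecialLinearGroup

/-!
The automorphisms of the algebraic group `SL_n`.
-/

set_option linter.all false

open Matrix Matrix.SpecialLinearGroup
open Function hiding swap
open Equiv hiding trans symm refl

namespace Vale.Agent.P011LA

open Vale.Agent.P011L

theorem w_eq {K A : Type} [CommRing K] [Ring A] [Algebra K A] {e f : A} (he : e * e = 0)
    (h : e * f * e = e) {c c' : K} (hc : c * c' = 1) :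
    (1 + c • e) * (1 + (-c') • f) * (1 + c • e) = 1 - e * f - f * e + c • e - c' • f := by
  simp only [mul_add, add_mul, mul_one, one_mul, smul_mul_assoc, mul_smul_comm, he, h, smul_add,
    smul_smul, smul_zero, mul_neg, neg_mul, hc, mul_comm c' c, neg_smul, one_smul, smul_neg]
  abel

variable {K : Type} [Field K] {n : ℕ}

theorem orb {S : (Fin n → ℤ) → Prop} (hS : ∀ y (σ : Perm (Fin n)), S y → S (y ∘ σ))
    (hc : ∀ w : Option (Fin n) → Fin n → ℤ, Injective w → ¬ ∀ i, S (w i)) {y : Fin n → ℤ}
    (hy : S y) {p q : Fin n} (h : y p ≠ y q) : ∃ i, ∀ a b, a ≠ i → b ≠ i → y a = y b := by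
  have sw : ∀ u v a b, y u ≠ y v → y ∘ swap u v = y ∘ swap a b → u = a ∨ u = b :=
    fun u v a b h1 h2 => by
      by_contra h3
      push Not at h3
      have := congrFun h2 u
      simp only [Function.comp_apply, swap_apply_left, swap_apply_of_ne_of_ne h3.1 h3.2] at this
      exact h1 this.symm
  have s0 : ∀ u v, y u ≠ y v → y ∘ swap u v ≠ y := fun u v h1 h2 =>
    h1 (by simpa using (congrFun h2 u).symm)
  obtain ⟨o, ho⟩ : ∃ o : Fin n → Fin n, ∀ i, (y i = y p ∧ o i = q) ∨ (y i ≠ y p ∧ o i = p) :=
    ⟨fun i => if y i = y p then q else p, fun i => by by_cases a : y i = y p <;> simp [a]⟩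
  have h1 : ∀ i, y i ≠ y (o i) := fun i => by have := ho i; grind
  have E : ∀ u v, y u ≠ y v → ∃ i, (u = i ∨ u = o i) ∧ (v = i ∨ v = o i) := fun u v h2 => by
    by_contra h3
    refine hc (fun x => x.elim (y ∘ swap u v) fun i => if i = q then y else y ∘ swap i (o i)) ?_ ?_
    · have h4 : ∀ i, y ∘ swap u v ≠ if i = q then y else y ∘ swap i (o i) := fun i e => by
        split_ifs at e
        · exact s0 _ _ h2 e
        · exact h3 ⟨i, sw _ _ _ _ h2 e, sw _ _ _ _ h2.symm (swap_comm u v ▸ e)⟩
      rintro (_ | i) (_ | j) e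
      · rfl
      · exact absurd e (h4 j)
      · exact absurd e.symm (h4 i)
      · simp only [Option.elim] at e
        split_ifs at e with a b b
        · rw [a, b]
        · exact absurd e.symm (s0 _ _ (h1 j))
        · exact absurd e (s0 _ _ (h1 i))
        · have h5 := sw _ _ _ _ (h1 i) e
          have h6 := sw _ _ _ _ (h1 i).symm (swap_comm i (o i) ▸ e)
          have := ho i
          have := ho j
          grind
    · rintro (_ | i)
      · exact hS _ _ hy
      · simp only [Option.elim]
        split_ifs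
        exacts [hy, hS _ _ hy]
  by_cases h2 : ∃ p', p' ≠ p ∧ y p' = y p
  · obtain ⟨p', h3, h4⟩ := h2
    have h5 : ∀ a, a ≠ q → y a = y p := fun a ha => by
      by_contra h6
      obtain ⟨i, h7⟩ := E p' a (by grind)
      have := ho i
      grind
    exact ⟨q, fun a b ha hb => (h5 a ha).trans (h5 b hb).symm⟩
  · refine ⟨p, fun a b ha hb => by_contra fun h3 => ?_⟩
    obtain ⟨i, h4⟩ := E a b h3
    have := ho i
    grind

/-- the weights of the standard representation -/
def wt (i : Fin n) : Fin n → ℤ := Pi.single i (n : ℤ) - 1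

theorem wt_apply (i r : Fin n) : wt i r = (if r = i then (n : ℤ) else 0) - 1 := by
  simp [wt, Pi.single_apply]

theorem wt_comp (i : Fin n) (σ : Perm (Fin n)) : wt i ∘ σ = wt (σ.symm i) := funext fun r => by
  simp [wt_apply, Equiv.eq_symm_apply]

theorem ch_sum {R I : Type} [Fintype R] (s : Finset I) (w : I → R → ℤ) (t : R → Kˣ) :
    ch (∑ i ∈ s, w i) t = ∏ i ∈ s, ch (w i) t := by
  classical
  induction s using Finset.induction_on with
  | empty => simp [ch_zero]
  | insert i s h ih => rw [Finset.sum_insert h, Finset.prod_insert h, ch_add, ih]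

theorem ch_const (y : Fin n → ℤ) (t : Kˣ) : ch y (fun _ => t) = (t : K) ^ ∑ r, y r := by
  rw [ch_apply]
  induction (Finset.univ : Finset (Fin n)) using Finset.induction_on with
  | empty => simp
  | insert i s h ih => rw [Finset.sum_insert h, Finset.prod_insert h, zpow_add₀ t.ne_zero, ih]

/-- the torus -/
def tau : (Fin n → Kˣ) →* SpecialLinearGroup (Fin n) K where
  toFun t := ⟨diagonal fun i => ch (wt i) t, by
    rw [det_diagonal, ← ch_sum, show ∑ i : Fin n, wt i = 0 from funext fun r => by
      simp [wt_apply, Finset.sum_sub_distrib], ch_zero]⟩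
  map_one' := Subtype.ext (by simp)
  map_mul' t u := Subtype.ext ((by simp only [map_mul] : diagonal _ = diagonal _).trans
    (diagonal_mul_diagonal _ _).symm)

theorem tau_val (t : Fin n → Kˣ) : (tau t).1 = diagonal fun i => ch (wt i) t := rfl

theorem diagonal_mul_single (d : Fin n → K) (i j : Fin n) (c : K) :
    diagonal d * single i j c = single i j (d i * c) := by
  ext a b
  simp only [diagonal_mul, single_apply]
  split_ifs with h
  exacts [by rw [h.1], mul_zero _]

theorem single_mul_diagonal (d : Fin n → K) (i j : Fin n) (c : K) :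
    single i j c * diagonal d = single i j (c * d j) := by
  ext a b
  simp only [mul_diagonal, single_apply]
  split_ifs with h
  exacts [by rw [h.2], zero_mul _]

theorem tv_comm {i j k : Fin n} (a : i ≠ j) (b : j ≠ k) (c : i ≠ k) (x y : K) :
    transvection a x * transvection b y =
      transvection c (x * y) * (transvection b y * transvection a x) := Subtype.ext (by
  simp [transvection_coe, mul_add, add_mul, single_mul_single_of_ne _ _ _ _ c.symm,
    single_mul_single_of_ne _ _ _ _ b.symm]
  abel)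

theorem diag_eq {i j : Fin n} (a : i ≠ j) {c : K} (hc : c ≠ 0) : diag2n a c hc =
    transvection a c * transvection a.symm (-c⁻¹) * transvection a c *
      (transvection a (-1) * transvection a.symm (- -1) * transvection a (-1)) := by
  have e : ∀ (i j : Fin n) (x : K), single i j x = x • single i j 1 := fun i j x => by simp
  have h1 : single i j (1 : K) * single i j (1 : K) = 0 := single_mul_single_of_ne _ _ _ _ a.symm _
  have h2 : single i j (1 : K) * single j i (1 : K) * single i j (1 : K) = single i j 1 := by simp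
  refine Subtype.ext ?_
  simp only [SpecialLinearGroup.coe_mul, transvection_coe]
  rw [e i j c, e j i (-c⁻¹), e i j (-1), e j i (- -1), w_eq h1 h2 (mul_inv_cancel₀ hc),
    w_eq h1 h2 (c := -1) (c' := -1) (by simp), diag2n_coe]
  simp [mul_add, add_mul, mul_sub, sub_mul, single_mul_single_of_ne _ _ _ _ a,
    single_mul_single_of_ne _ _ _ _ a.symm]
  ext p q
  by_cases h3 : p = q
  · subst h3
    by_cases h4 : i = p <;> by_cases h5 : j = p <;> simp_all [single_apply, eq_comm (a := p)]
  · simp [single_apply, h3, one_apply_ne h3]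
    grind

theorem core [Infinite K] (hn : 3 ≤ n) (ρ : SpecialLinearGroup (Fin n) K →* Matrix (Fin n) (Fin n) K)
    (hτ : ∀ t, ρ (tau t) = diagonal fun i => ch (wt i) t)
    (hp : ∀ i j (h : i ≠ j) a b, (fun s => ρ (transvection h s) a b) ∈ P1 K) (hi : Injective ρ) :
    ∃ d : GL (Fin n) K, ∀ g, ρ g * d.1 = d.1 * g.1 := by
  have h1 : ∀ i j, ∃ c : K, c ≠ 0 ∧ ∀ (h : i ≠ j) s,
      ρ (transvection h s) = (transvection h (s * c)).1 := fun i j => by
    by_cases h : i = j
    · exact ⟨1, one_ne_zero, fun a => absurd h a⟩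
    obtain ⟨e, a, b⟩ := shape (w := wt) (α := wt i - wt j) (hp i j h) (by simp) (fun t s => by
      rw [← hτ, ← map_mul, ← map_mul]
      refine congrArg ρ (Subtype.ext ?_)
      simp only [SpecialLinearGroup.coe_mul, transvection_coe, tau_val, mul_add, add_mul, mul_one,
        one_mul, diagonal_mul_single, single_mul_diagonal, ch_sub]
      rw [div_mul_eq_mul_div, div_mul_cancel₀ _ (ch_ne _ _)]) fun a b m hm e => by
        have := congrFun e i
        simp only [Pi.add_apply, Pi.smul_apply, Pi.sub_apply, wt_apply, if_neg h] at this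
        rw [nsmul_eq_mul] at this
        have h2 : (2 : ℤ) ≤ m := by exact_mod_cast hm
        have h3 : (3 : ℤ) ≤ n := by exact_mod_cast hn
        split_ifs at this <;> nlinarith
    have c : e = single i j (e i j) := by
      ext p q
      by_cases h2 : e p q = 0
      · rw [single_apply]
        split_ifs with h3
        · rw [h3.1, h3.2]
        · exact h2
      · have h3 := congrFun (b p q h2) i
        have h4 := congrFun (b p q h2) j
        simp only [Pi.add_apply, Pi.sub_apply, wt_apply, if_neg h, if_neg (Ne.symm h)] at h3 h4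
        obtain rfl : i = p := by split_ifs at h3 <;> omega
        obtain rfl : j = q := by split_ifs at h4 <;> omega
        simp
    refine ⟨e i j, fun h0 => ?_, fun _ s => by rw [a, c, transvection_coe]; simp⟩
    have := congrFun (congrFun (congrArg Subtype.val (hi ((a 1).trans (by
      rw [c, h0, single_zero, smul_zero, add_zero, ρ.map_one] : _ = ρ 1)))) i) j
    simp [transvection_coe, h] at this
  choose c c0 hc using h1
  have h2 : ∀ i j k, i ≠ j → j ≠ k → i ≠ k → c i j * c j k = c i k := fun i j k a b d => by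
    have h3 := congrArg ρ (tv_comm a b d 1 1)
    simp only [map_mul, hc, one_mul, ← SpecialLinearGroup.coe_mul] at h3
    have h4 := mul_right_cancel ((tv_comm a b d _ _).symm.trans (Subtype.ext h3))
    simpa [transvection_coe] using congrFun (congrFun (congrArg Subtype.val h4) i) k
  let z : Fin n := ⟨0, by omega⟩
  let d : Fin n → K := fun i => if i = z then 1 else c i z
  have h3 : ∀ i j, i ≠ j → c i j * d j = d i := fun i j h => by
    by_cases a : i = z
    · obtain ⟨k, b, e⟩ := Fin.exists_ne_and_ne_of_two_lt i j hn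
      simp only [d, ← a, if_neg h.symm, if_true]
      refine mul_right_cancel₀ (c0 i k) ?_
      rw [mul_assoc, h2 j i k h.symm b.symm e.symm, h2 i j k h e.symm b.symm, one_mul]
    · by_cases b : j = z
      · simp [d, a, b]
      · simp only [d, if_neg a, if_neg b, h2 i j z h b a]
  haveI : Nontrivial (Fin n) := Fin.nontrivial_iff_two_le.2 (by omega)
  have h4 : ∀ i j (h : i ≠ j) s, ρ (transvection h s) * diagonal d =
      diagonal d * (transvection h s).1 := fun i j h s => by
    simp only [hc, transvection_coe, mul_add, add_mul, mul_one, one_mul, diagonal_mul_single,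
      single_mul_diagonal, mul_assoc, h3 i j h, mul_comm (d i)]
  have h5 : ∀ A B : SpecialLinearGroup (Fin n) K, ρ A * diagonal d = diagonal d * A.1 →
      ρ B * diagonal d = diagonal d * B.1 → ρ (A * B) * diagonal d = diagonal d * (A * B).1 :=
    fun A B a b => by
      rw [map_mul, mul_assoc, b, ← mul_assoc, a, mul_assoc, SpecialLinearGroup.coe_mul]
  refine ⟨GeneralLinearGroup.mkOfDetNeZero (diagonal d) ?_, fun g =>
    diagonal_transvection_induction' (fun g => ρ g * diagonal d = diagonal d * g.1) g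
      (fun i j h x hx => ?_) h4 h5⟩
  · rw [det_diagonal]
    exact Finset.prod_ne_zero_iff.2 fun i _ => by simp only [d]; split_ifs <;> simp [c0]
  · rw [diag_eq]
    exact h5 _ _ (h5 _ _ (h5 _ _ (h4 ..) (h4 ..)) (h4 ..)) (h5 _ _ (h5 _ _ (h4 ..) (h4 ..)) (h4 ..))

/-- conjugation -/
def cjh {J : Type} [Fintype J] [DecidableEq J] (s : GL J K) : Matrix J J K →* Matrix J J K where
  toFun x := (s⁻¹).1 * x * s.1
  map_one' := by rw [mul_one, Units.inv_mul]
  map_mul' x y := by simp only [mul_assoc, Units.mul_inv_cancel_left]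

theorem cjh_inj {J : Type} [Fintype J] [DecidableEq J] (s : GL J K) : Injective (cjh s) :=
  fun x y h => (Units.mul_right_inj s⁻¹).1 ((Units.mul_left_inj s).1 h)

/-- the inverse transpose -/
def itr : SpecialLinearGroup (Fin n) K →* SpecialLinearGroup (Fin n) K where
  toFun g := ⟨(g⁻¹).1ᵀ, by rw [det_transpose, (g⁻¹).2]⟩
  map_one' := Subtype.ext (by simp)
  map_mul' g h := Subtype.ext ((by rw [_root_.mul_inv_rev]; rfl : _ = ((h⁻¹).1 * (g⁻¹).1)ᵀ).trans
    (transpose_mul _ _))

theorem itr_of {g h : SpecialLinearGroup (Fin n) K} (e : (g⁻¹).1ᵀ = h.1) : itr g = h := Subtype.ext e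

theorem itr_itr (g : SpecialLinearGroup (Fin n) K) : itr (itr g) = g := by
  refine itr_of ?_
  rw [← map_inv]
  show ((g⁻¹⁻¹).1ᵀ)ᵀ = _
  rw [inv_inv, transpose_transpose]

theorem wt_perm (z : Fin n) (ρ : SpecialLinearGroup (Fin n) K →* Matrix (Fin n) (Fin n) K)
    (y : Fin n → ℤ) (σ : Perm (Fin n)) (h : Wt (ρ.comp tau) y) : Wt (ρ.comp tau) (y ∘ σ) := by
  let g : SpecialLinearGroup (Fin n) K := ⟨σ.permMatrix K * diagonal (update 1 z ((σ.sign : ℤ) : K)), by
    rw [det_mul, det_permutation, det_diagonal, Finset.prod_update_of_mem (Finset.mem_univ z)]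
    simp [← Int.cast_mul]⟩
  refine h.conj (n := ρ g) (n' := ρ g⁻¹) (by rw [← map_mul, inv_mul_cancel, map_one]) fun t =>
    ⟨t ∘ σ.symm, ?_, ?_⟩
  · simp only [MonoidHom.comp_apply, ← map_mul]
    refine congrArg ρ (Subtype.ext ?_)
    show (tau t).1 * (_ * _) = (_ * _) * (tau _).1
    ext a b
    simp only [tau_val, diagonal_mul, mul_diagonal, PEquiv.toMatrix_apply, toPEquiv_apply, Option.mem_def, Option.some.injEq]
    split_ifs with e
    · rw [← ch_comp (wt b) _ σ, wt_comp, ← e, symm_apply_apply, comp_assoc, symm_comp_self,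
        comp_id, mul_comm]
    · simp
  · rw [← ch_comp y _ σ, comp_assoc, symm_comp_self, comp_id]

theorem wt_diag [Infinite K] (hn : 3 ≤ n)
    (ρ : SpecialLinearGroup (Fin n) K →* Matrix (Fin n) (Fin n) K) (ρ1 : Injective ρ)
    (ρ2 : ∀ a b, (fun t => ρ (tau t) a b) ∈ Sp K ⊤) : ∃ (m : ℤ) (s : GL (Fin n) K),
      ∀ t, ρ (tau t) * s.1 = s.1 * diagonal fun j => ch (m • wt j) t := by
  let z : Fin n := ⟨0, by omega⟩
  let z' : Fin n := ⟨1, by omega⟩
  have zz : z' ≠ z := by simp [z, z']
  obtain ⟨y, y0, hy⟩ := exists_wt (ρ.comp tau) ρ2 (by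
    by_contra h
    push Not at h
    have : wt z = 0 := ch_inj (K := K) (MonoidHom.ext fun t => by
      simpa [tau_val, ch_zero] using congrFun (congrFun (congrArg Subtype.val
        (ρ1 ((h t).trans ρ.map_one.symm))) z) z)
    simpa [wt_apply, zz] using congrFun this z')
  have hS := wt_perm z ρ
  have h0 : ∑ r, y r = 0 := zpow_inj (K := K) fun t => Units.ext (by
    obtain ⟨v, a, b⟩ := hy
    have h1 := b fun _ => t
    have h2 : tau (fun _ : Fin n => t) = 1 := Subtype.ext (by
      refine (congrArg diagonal (funext fun i => ?_)).trans diagonal_one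
      rw [ch_const]
      simp [wt_apply, Finset.sum_sub_distrib])
    rw [MonoidHom.comp_apply, h2, map_one, one_mulVec, ch_const] at h1
    simpa using (smul_left_injective K a ((one_smul K v).trans h1)).symm)
  obtain ⟨q, hq⟩ : ∃ q, y z ≠ y q := by
    by_contra h
    push Not at h
    rw [Finset.sum_congr rfl fun r _ => (h r).symm] at h0
    refine y0 (funext fun r => (h r).symm.trans ?_)
    simp at h0
    exact h0.resolve_left (by omega)
  obtain ⟨i, hi⟩ := orb hS (fun w a b => by simpa using card_le a b) hy hq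
  obtain ⟨j, hj, -⟩ := Fin.exists_ne_and_ne_of_two_lt i i hn
  obtain ⟨m, rfl⟩ : ∃ m : ℤ, y = m • wt i := ⟨-y j, funext fun r => by
    rw [← Finset.add_sum_erase _ _ (Finset.mem_univ i),
      Finset.sum_congr rfl fun r h => hi r j (Finset.ne_of_mem_erase h) hj] at h0
    simp only [Finset.sum_const, Finset.card_erase_of_mem (Finset.mem_univ i), Finset.card_univ,
      Fintype.card_fin, nsmul_eq_mul, Nat.cast_sub (show 1 ≤ n by omega)] at h0
    simp only [Pi.smul_apply, wt_apply, smul_eq_mul]
    split_ifs with e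
    · rw [e]; push_cast at h0; linarith
    · rw [hi r j e hj]; ring⟩
  have m0 : m ≠ 0 := fun e => y0 (by rw [e, zero_smul])
  refine ⟨m, exists_diag (fun i j e => ?_) fun j => ?_⟩
  · have := congrFun e i
    simp only [Pi.smul_apply, wt_apply, smul_eq_mul, mul_eq_mul_left_iff, m0, or_false] at this
    split_ifs at this <;> omega
  · have := hS _ (swap i j) hy
    rwa [show (m • wt i) ∘ swap i j = m • (wt i ∘ swap i j) from rfl, wt_comp, symm_swap,
      swap_apply_left] at this

theorem a1' [Infinite K] (hn : 3 ≤ n)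
    (ρ : SpecialLinearGroup (Fin n) K →* Matrix (Fin n) (Fin n) K) (ρ1 : Injective ρ)
    (hψ : ∀ a b, ∃ p : MvPolynomial (Fin n × Fin n) K, ∀ g,
      ρ g a b = MvPolynomial.eval (fun e => g.1 e.1 e.2) p)
    (hψ' : ∀ a b, ∃ p : MvPolynomial (Fin n × Fin n) K, ∀ g,
      g.1 a b = MvPolynomial.eval (fun e => ρ g e.1 e.2) p) :
    ∃ u : GL (Fin n) K, (∀ g, ρ g * u.1 = u.1 * g.1) ∨ ∀ g, ρ g * u.1 = u.1 * (g⁻¹).1ᵀ := by
  have ρ2 : ∀ {Z : Type} (A : Subalgebra K (Z → K)) (f : Z → SpecialLinearGroup (Fin n) K),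
      (∀ a b, (fun z => (f z).1 a b) ∈ A) → ∀ a b, (fun z => ρ (f z) a b) ∈ A :=
    fun A f h a b => by
      obtain ⟨p, hp⟩ := hψ a b
      rw [funext fun z => hp (f z)]
      exact pol_mem A (f := fun (e : Fin n × Fin n) z => (f z).1 e.1 e.2) (fun e => h e.1 e.2) p
  have ρ3 : ∀ i j (h : i ≠ j) (c : K) a b, (fun s => ρ (transvection h (s * c)) a b) ∈ P1 K :=
    fun i j h c => ρ2 _ _ fun a b => by
      have : (fun s : K => (transvection h (s * c)).1 a b) =
          fun s => (1 : Matrix _ _ K) a b + s * single i j c a b := funext fun s => by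
        simp [transvection_coe, single_apply]
      exact this ▸ lin_P1 _ _
  obtain ⟨m, s, hs⟩ := wt_diag hn ρ ρ1 (ρ2 _ _ (diag_mem fun _ => trivial))
  have hs' : ∀ t, cjh s (ρ (tau t)) = diagonal fun j => ch (m • wt j) t := fun t =>
    (mul_assoc _ _ _).trans ((congrArg _ (hs t)).trans (Units.inv_mul_cancel_left _ _))
  have hm : m ∣ -1 := by
    let z : Fin n := ⟨0, by omega⟩
    let z' : Fin n := ⟨1, by omega⟩
    have zz : z' ≠ z := by simp [z, z']
    obtain ⟨p, hp⟩ := hψ' z z
    let Y : AddSubgroup (Fin n → ℤ) := (AddSubgroup.zmultiples m).comap (Pi.evalAddMonoidHom _ z')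
    have h1 := pol_mem (Sp K Y) (fun e : Fin n × Fin n => conj_mem (Sp K Y)
      (diag_mem (w := fun j => m • wt j) fun j => Int.mem_zmultiples_iff.2 (Dvd.intro _ rfl))
      s.1 (s⁻¹).1 e.1 e.2) p
    simp only [← hs, Units.mul_inv_cancel_right, ← hp, tau_val, diagonal_apply_eq] at h1
    simpa [wt_apply, zz] using (Int.mem_zmultiples_iff.1 (mem_of_Sp h1) : m ∣ wt z z')
  have fin : ∀ θ : SpecialLinearGroup (Fin n) K →* SpecialLinearGroup (Fin n) K, Injective θ →
      (∀ t, cjh s (ρ (θ (tau t))) = diagonal fun j => ch (wt j) t) →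
      (∀ i j (h : i ≠ j) a b, (fun s => ρ (θ (transvection h s)) a b) ∈ P1 K) →
      ∃ u : GL (Fin n) K, ∀ g, ρ (θ g) * u.1 = u.1 * g.1 := fun θ a b c => by
    obtain ⟨d, hd⟩ := core hn ((cjh s).comp (ρ.comp θ)) b (fun i j h => conj_mem _ (c i j h) _ _)
      ((cjh_inj s).comp (ρ1.comp a))
    refine ⟨s * d, fun g => ?_⟩
    rw [Units.val_mul, mul_assoc, ← hd g]
    simp only [cjh, MonoidHom.comp_apply, MonoidHom.coe_mk, OneHom.coe_mk, mul_assoc,
      Units.mul_inv_cancel_left]
  rcases Int.isUnit_iff.1 (isUnit_of_dvd_unit hm isUnit_one.neg) with rfl | rfl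
  · obtain ⟨u, hu⟩ := fin (.id _) injective_id (by simpa using hs') fun i j h => by
      simpa using ρ3 i j h 1
    exact ⟨u, .inl hu⟩
  · obtain ⟨u, hu⟩ := fin itr (LeftInverse.injective itr_itr) (fun t => by
      rw [itr_of (h := tau t⁻¹) (by rw [← map_inv, tau_val, diagonal_transpose]), hs']
      simp [ch_inv, ch_neg]) fun i j h => by
      have : ∀ s : K, itr (transvection h s) = transvection h.symm (s * -1) := fun s => itr_of (by
        rw [transvection_inv]; simp [transvection_coe])
      simpa only [this] using ρ3 j i h.symm (-1)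
    refine ⟨u, .inr fun g => ?_⟩
    have := hu (itr g)
    rwa [itr_itr] at this

/-- **the automorphisms of `SL_n`** -/
theorem a1 : A1 := fun K _ _ n hn ψ hψ hψ' => by
  haveI : Infinite K := not_finite_iff_infinite.1 fun _ => not_finite K
  let ι : SpecialLinearGroup (Fin n) K →* SA K n := toGL.codRestrict _ fun g => Units.ext g.2
  have ι1 : Injective ι := fun g h e => Subtype.ext (congrArg (·.1.1) e)
  have ι2 : Surjective ι := fun g => ⟨⟨g.1.1, congrArg Units.val g.2⟩, Subtype.ext (Units.ext rfl)⟩
  obtain ⟨u, hu⟩ := a1' hn (((Units.coeHom _).comp (SA K n).subtype).comp (ψ.toMonoidHom.comp ι))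
    (Units.val_injective.comp (Subtype.val_injective.comp (ψ.injective.comp ι1)))
    (fun a b => (hψ a b).imp fun p h g => h (ι g)) fun a b => (hψ' a b).imp fun p h g => by
      have := h (ψ (ι g))
      rwa [ψ.symm_apply_apply] at this
  refine ⟨u, hu.imp (fun h g => ?_) fun h g => ?_⟩ <;> obtain ⟨g, rfl⟩ := ι2 g
  · exact h g
  · exact (h g).trans (by rw [← map_inv]; rfl)

end Vale.Agent.P011LA
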