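import Mathlib.LinearAlgebra.Matrix.GeneralLinearGroup.Defs
import Mathlib.LinearAlgebra.Matrix.NonsingularInverse
import Mathlib.LinearAlgebra.LinearIndependent.Lemmas
import Mathlib.LinearAlgebra.Dimension.Finite
import Mathlib.LinearAlgebra.Dimension.Constructions
import Mathlib.LinearAlgebra.Matrix.ToLinearEquiv
import Mathlib.Algebra.MvPolynomial.Eval
import Mathlib.Algebra.Polynomial.Roots
import Mathlib.Algebra.Polynomial.Degree.SmallDegree
import Mathlib.RingTheory.Adjoin.Basic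
import Mathlib.RingTheory.RootsOfUnity.Basic
import Mathlib.Tactic.LinearCombination
import Mathlib.Algebra.GroupWithZero.Units.Equiv

/-!
Polynomial representations of split tori and of root subgroups.
-/

set_option linter.all false

open Matrix Function

namespace Vale.Agent.P011LA

variable {K R J : Type} [Field K] [Fintype R] [Fintype J] [DecidableEq J]

/-- the characters of the split torus -/
def ch (y : R → ℤ) : (R → Kˣ) →* K where
  toFun t := ∏ r, ((t r ^ y r : Kˣ) : K)
  map_one' := by simp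
  map_mul' t u := by simp [mul_zpow, Finset.prod_mul_distrib]

theorem ch_apply (y : R → ℤ) (t : R → Kˣ) : ch y t = ∏ r, (t r : K) ^ y r := by
  simp [ch]

theorem ch_ne (y : R → ℤ) (t : R → Kˣ) : ch y t ≠ 0 :=
  Finset.prod_ne_zero_iff.2 fun r _ => Units.ne_zero _

theorem ch_zero (t : R → Kˣ) : ch (0 : R → ℤ) t = 1 := by simp [ch_apply]

theorem ch_add (y z : R → ℤ) (t : R → Kˣ) : ch (y + z) t = ch y t * ch z t := by
  simp [ch, zpow_add, Finset.prod_mul_distrib]

theorem ch_neg (y : R → ℤ) (t : R → Kˣ) : ch (-y) t = (ch y t)⁻¹ :=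
  eq_inv_of_mul_eq_one_left (by rw [← ch_add, neg_add_cancel, ch_zero])

theorem ch_inv (y : R → ℤ) (t : R → Kˣ) : ch y t⁻¹ = ch (-y) t := by rw [map_inv, ch_neg]

theorem ch_sub (y z : R → ℤ) (t : R → Kˣ) : ch (y - z) t = ch y t / ch z t := by
  rw [sub_eq_add_neg, ch_add, ch_neg, div_eq_mul_inv]

theorem ch_nsmul (m : ℕ) (y : R → ℤ) (t : R → Kˣ) : ch (m • y) t = ch y t ^ m := by
  induction m with
  | zero => rw [zero_nsmul, ch_zero, pow_zero]
  | succ m ih => rw [succ_nsmul, ch_add, ih, pow_succ]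

theorem ch_comp (y : R → ℤ) (t : R → Kˣ) (σ : Equiv.Perm R) : ch (y ∘ σ) (t ∘ σ) = ch y t :=
  Equiv.prod_comp σ fun r => ((t r ^ y r : Kˣ) : K)

theorem pol_mem {Z σ : Type} (A : Subalgebra K (Z → K)) {f : σ → Z → K} (hf : ∀ e, f e ∈ A)
    (p : MvPolynomial σ K) : (fun z => MvPolynomial.eval (fun e => f e z) p) ∈ A := by
  induction p using MvPolynomial.induction_on with
  | C a => simp only [MvPolynomial.eval_C]; exact A.algebraMap_mem a
  | add p q a b => simp only [map_add]; exact A.add_mem a b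
  | mul_X p e a => simp only [map_mul, MvPolynomial.eval_X]; exact A.mul_mem a (hf e)

/-- the polynomial functions in one variable -/
noncomputable def P1 (K : Type) [Field K] : Subalgebra K (K → K) :=
  (Polynomial.aeval (id : K → K)).range

theorem mem_P1 {f : K → K} : f ∈ P1 K ↔ ∃ p : Polynomial K, ∀ s, f s = p.eval s := by
  have e : ∀ (p : Polynomial K) s, Polynomial.aeval (id : K → K) p s = p.eval s := fun p s =>
    (Polynomial.aeval_algHom_apply (Pi.evalAlgHom K (fun _ => K) s) id p).symm.trans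
      (congrFun (Polynomial.coe_aeval_eq_eval s) p)
  exact ⟨fun ⟨p, h⟩ => ⟨p, fun s => h ▸ e p s⟩, fun ⟨p, h⟩ => ⟨p, funext fun s => (e p s).trans (h s).symm⟩⟩

theorem lin_P1 (a b : K) : (fun s => a + s * b) ∈ P1 K :=
  mem_P1.2 ⟨.C a + .C b * .X, fun s => by simp; exact mul_comm _ _⟩

/-- the span of the characters -/
def Sp (K : Type) [Field K] (Y : AddSubgroup (R → ℤ)) : Subalgebra K ((R → Kˣ) → K) :=
  (Submodule.span K ((fun y => (ch y : (R → Kˣ) → K)) '' Y)).toSubalgebra
    (Submodule.subset_span ⟨0, Y.zero_mem, funext ch_zero⟩) fun a b ha hb => by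
      have := Submodule.mul_mem_mul ha hb
      rw [Submodule.span_mul_span] at this
      refine Submodule.span_mono ?_ this
      rintro _ ⟨_, ⟨y, hy, rfl⟩, _, ⟨z, hz, rfl⟩, rfl⟩
      exact ⟨y + z, Y.add_mem hy hz, funext (ch_add y z)⟩

theorem ch_mem {Y : AddSubgroup (R → ℤ)} {y : R → ℤ} (h : y ∈ Y) :
    (ch y : (R → Kˣ) → K) ∈ Sp K Y := Submodule.subset_span ⟨y, h, rfl⟩

theorem diag_mem {Y : AddSubgroup (R → ℤ)} {w : J → R → ℤ} (h : ∀ j, w j ∈ Y) (a b : J) :
    (fun t : R → Kˣ => diagonal (fun j => (ch (w j) t : K)) a b) ∈ Sp K Y := by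
  by_cases e : a = b
  · subst e
    simp only [diagonal_apply_eq]
    exact ch_mem (h a)
  · simp only [diagonal_apply_ne _ e]
    exact (Sp K Y).zero_mem

theorem conj_mem {Z : Type} (A : Subalgebra K (Z → K)) {f : Z → Matrix J J K}
    (h : ∀ a b, (fun z => f z a b) ∈ A) (u v : Matrix J J K) (a b : J) :
    (fun z => (u * f z * v) a b) ∈ A := by
  have e : (fun z => (u * f z * v) a b) = ∑ d, ∑ c, (u a c * v d b) • fun z => f z c d := by
    funext z
    simp only [mul_apply, Finset.sum_apply, Finset.sum_mul, Pi.smul_apply, smul_eq_mul]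
    exact Finset.sum_congr rfl fun d _ => Finset.sum_congr rfl fun c _ => by ring
  rw [e]
  exact A.sum_mem fun d _ => A.sum_mem fun c _ => A.smul_mem (h c d) _

/-- the weights of a representation of the torus -/
def Wt (ρ : (R → Kˣ) → Matrix J J K) (y : R → ℤ) : Prop :=
  ∃ v : J → K, v ≠ 0 ∧ ∀ t, ρ t *ᵥ v = ch y t • v

theorem Wt.conj {ρ : (R → Kˣ) → Matrix J J K} {y z : R → ℤ} (h : Wt ρ y) {n n' : Matrix J J K}
    (hn : n' * n = 1) (e : ∀ t, ∃ u, ρ t * n = n * ρ u ∧ ch y u = ch z t) : Wt ρ z := by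
  obtain ⟨v, a, b⟩ := h
  refine ⟨n *ᵥ v, fun c => a ?_, fun t => ?_⟩
  · rw [← one_mulVec v, ← hn, ← mulVec_mulVec, c, mulVec_zero]
  · obtain ⟨u, c, d⟩ := e t
    rw [mulVec_mulVec, c, ← mulVec_mulVec, b, mulVec_smul, d]

variable [Infinite K]

theorem zpow_inj {m : ℤ} (h : ∀ t : Kˣ, t ^ m = 1) : m = 0 := by
  by_contra h0
  haveI : NeZero m.natAbs := ⟨Int.natAbs_ne_zero.2 h0⟩
  have : rootsOfUnity m.natAbs K = ⊤ := eq_top_iff.2 fun t _ => by
    rw [mem_rootsOfUnity, ← zpow_natCast]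
    rcases Int.natAbs_eq m with e | e
    · rw [← e, h]
    · rw [← neg_neg (m.natAbs : ℤ), ← e, zpow_neg, h, inv_one]
  haveI : Finite (⊤ : Subgroup Kˣ) := this ▸ inferInstance
  haveI : Finite Kˣ := Finite.of_equiv _ Subgroup.topEquiv.toEquiv
  exact (Set.finite_singleton (0 : K)).infinite_compl
    (Finite.of_equiv _ unitsEquivNeZero : Finite {a : K // a ≠ 0})

theorem ch_inj : Injective (ch : (R → ℤ) → (R → Kˣ) →* K) := fun y z h => by
  classical
  funext r
  refine sub_eq_zero.1 (zpow_inj (K := K) fun t => Units.ext ?_)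
  have e : ∀ y : R → ℤ, ch y (Pi.mulSingle r t) = (t : K) ^ y r := fun y => by
    rw [ch_apply, Finset.prod_eq_single r (fun q _ a => by simp [Pi.mulSingle_eq_of_ne a]) (by simp),
      Pi.mulSingle_eq_same]
  rw [Units.val_zpow_eq_zpow_val, zpow_sub₀ t.ne_zero, ← e, ← e, h, div_self (ch_ne _ _), Units.val_one]

theorem ch_li : LinearIndependent K fun y : R → ℤ => (ch y : (R → Kˣ) → K) :=
  (linearIndependent_monoidHom (R → Kˣ) K).comp _ ch_inj

theorem mem_of_Sp {Y : AddSubgroup (R → ℤ)} {y : R → ℤ} (h : (ch y : (R → Kˣ) → K) ∈ Sp K Y) :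
    y ∈ Y := by
  by_contra a
  exact ch_li.notMem_span_image a h

theorem wt_li {ρ : (R → Kˣ) → Matrix J J K} {I : Type} {w : I → R → ℤ} (hw : Injective w)
    {v : I → J → K} (h0 : ∀ i, v i ≠ 0) (h : ∀ i t, ρ t *ᵥ v i = ch (w i) t • v i) :
    LinearIndependent K v := by
  refine linearIndependent_iff'.2 fun s c e i hi => ?_
  obtain ⟨j, hj⟩ := Function.ne_iff.1 (h0 i)
  refine (mul_eq_zero.1 (linearIndependent_iff'.1 ((ch_li (K := K)).comp w hw) s
    (fun i => c i * v i j) (funext fun t => ?_) i hi)).resolve_right hj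
  have h1 : ρ t *ᵥ (∑ i ∈ s, c i • v i) = 0 := by rw [e, mulVec_zero]
  simp only [mulVec_sum, mulVec_smul, h] at h1
  have := congrFun h1 j
  simp only [Finset.sum_apply, Pi.smul_apply, smul_eq_mul, Function.comp, Pi.zero_apply] at this ⊢
  exact (Finset.sum_congr rfl fun i _ => by ring).trans this

theorem card_le {ρ : (R → Kˣ) → Matrix J J K} {I : Type} [Fintype I] {w : I → R → ℤ}
    (hw : Injective w) (h : ∀ i, Wt ρ (w i)) : Fintype.card I ≤ Fintype.card J := by
  choose v a b using h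
  simpa using (wt_li hw a b).fintype_card_le_finrank

theorem exists_diag {ρ : (R → Kˣ) → Matrix J J K} {w : J → R → ℤ} (hw : Injective w)
    (h : ∀ j, Wt ρ (w j)) :
    ∃ s : GL J K, ∀ t, ρ t * s.1 = s.1 * diagonal fun j => ch (w j) t := by
  choose v a b using h
  obtain ⟨s, hs⟩ : IsUnit (of v)ᵀ := linearIndependent_cols_iff_isUnit.1 (wt_li hw a b)
  refine ⟨s, fun t => ?_⟩
  rw [hs]
  ext i j
  rw [mul_diagonal, mul_comm]
  exact congrFun (b j t) i

theorem exists_wt (ρ : (R → Kˣ) →* Matrix J J K) (h : ∀ a b, (fun t => ρ t a b) ∈ Sp K ⊤)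
    (h1 : ∃ t, ρ t ≠ 1) : ∃ y, y ≠ 0 ∧ Wt ρ y := by
  classical
  have h2 : ∀ a b, ∃ c : (R → ℤ) →₀ K, ∀ t, ρ t a b = c.sum fun y x => x * ch y t := fun a b => by
    have := h a b
    change _ ∈ Submodule.span K _ at this
    rw [AddSubgroup.coe_top, Set.image_univ] at this
    obtain ⟨c, hc⟩ := Finsupp.mem_span_range_iff_exists_finsupp.1 this
    exact ⟨c, fun t => by rw [← congrFun hc t, Finsupp.sum, Finsupp.sum, Finset.sum_apply]; rfl⟩
  choose c hc using h2
  let S := Finset.univ.biUnion fun e : J × J => (c e.1 e.2).support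
  have h3 : ∀ t a b, ρ t a b = ∑ y ∈ S, c a b y * ch y t := fun t a b => by
    rw [hc]
    exact Finsupp.sum_of_support_subset _ (Finset.subset_biUnion_of_mem
      (fun e : J × J => (c e.1 e.2).support) (Finset.mem_univ (a, b))) _ fun _ _ => zero_mul _
  by_contra h4
  push Not at h4
  have h5 : ∀ y ∈ S, y ≠ 0 → ∀ a b, c a b y = 0 := fun y hy h0 a b => by
    by_contra h6
    refine h4 y h0 ⟨fun a => c a b y, fun e => h6 (congrFun e a), fun t => funext fun a => ?_⟩
    refine sub_eq_zero.1 (linearIndependent_iff'.1 (ch_li (K := K)) S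
      (fun y => (ρ t *ᵥ fun a => c a b y) a - (ch y t • fun a => c a b y) a) (funext fun u => ?_) y hy)
    have h7 := h3 (t * u) a b
    rw [map_mul, mul_apply] at h7
    simp only [h3 u, Finset.mul_sum, map_mul] at h7
    simp only [Finset.sum_apply, Pi.smul_apply, smul_eq_mul, sub_mul, Finset.sum_sub_distrib, mulVec,
      dotProduct, Finset.sum_mul, Pi.zero_apply]
    rw [Finset.sum_comm, sub_eq_zero]
    simp only [mul_assoc] at h7 ⊢
    exact h7.trans (Finset.sum_congr rfl fun y _ => mul_left_comm _ _ _)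
  obtain ⟨t, ht⟩ := h1
  refine ht (Eq.trans ?_ ρ.map_one)
  ext a b
  rw [h3, h3]
  refine Finset.sum_congr rfl fun y hy => ?_
  by_cases h0 : y = 0
  · rw [h0, ch_zero, ch_zero]
  · rw [h5 y hy h0, zero_mul, zero_mul]

/-- the shape of a root subgroup -/
theorem shape {w : J → R → ℤ} {α : R → ℤ} {X : K → Matrix J J K}
    (hp : ∀ a b, (fun s => X s a b) ∈ P1 K) (h0 : X 0 = 1)
    (hc : ∀ t s, diagonal (fun a => ch (w a) t) * X s =
      X (ch α t * s) * diagonal fun a => ch (w a) t)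
    (hm : ∀ a b (m : ℕ), 2 ≤ m → w a ≠ w b + m • α) :
    ∃ e : Matrix J J K, (∀ s, X s = 1 + s • e) ∧ ∀ a b, e a b ≠ 0 → w a = w b + α := by
  choose p hp using fun a b => mem_P1.1 (hp a b)
  have h1 : ∀ a b m, (p a b).coeff m ≠ 0 → w a = w b + m • α := fun a b m h => ch_inj (K := K)
    (MonoidHom.ext fun t => by
      have h2 : .C (ch (w a) t) * p a b = (p a b).comp (.C (ch α t) * .X) * .C (ch (w b) t) :=
        Polynomial.funext fun s => by
          have := congrFun (congrFun (hc t s) a) b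
          rw [diagonal_mul, mul_diagonal, hp, hp] at this
          simpa using this
      have h3 := congrArg (·.coeff m) h2
      simp only [Polynomial.coeff_C_mul, Polynomial.coeff_mul_C, Polynomial.comp_C_mul_X_coeff] at h3
      rw [ch_add, ch_nsmul]
      exact mul_right_cancel₀ h (by linear_combination h3))
  refine ⟨of fun a b => (p a b).coeff 1, fun s => ?_, fun a b h => by simpa using h1 a b 1 h⟩
  ext a b
  have h2 : (p a b).natDegree ≤ 1 := Polynomial.natDegree_le_iff_coeff_eq_zero.2 fun m h =>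
    by_contra fun h3 => hm a b m h (h1 a b m h3)
  rw [hp, Polynomial.eq_X_add_C_of_natDegree_le_one h2, ← h0, Matrix.add_apply, hp,
    ← Polynomial.coeff_zero_eq_eval_zero]
  simp only [Polynomial.eval_add, Polynomial.eval_mul, Polynomial.eval_C, Polynomial.eval_X,
    Matrix.smul_apply, of_apply, smul_eq_mul]
  ring

end Vale.Agent.P011LA
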